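import Vale.Agent.P146.H350.Chi
import Vale.Agent.P146.H561.F2Size

/-!
Plan R2, row F2: **the product weight** `χ = tr (Y C1²) G(C1, C2) h(C1)`, `G = 1 / (1 - a + κ)`,
`h = 1 / (|C1|² + e)²`: size, touches, the splitting of `χ_b - χ` into the deep part and the rest,
the data of the law change.
-/

open MeasureTheory ProbabilityTheory Finset

namespace Vale.Agent.P146.H581.CH

open Vale.Agent.P157.Lv Vale.Agent.P146.H425 Vale.Agent.P146.H325 Vale.Agent.P146.H332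
  Vale.Agent.P146.H712 Vale.Agent.P146.R1 Vale.Agent.P146.R1C Vale.Agent.P146.H706
  Vale.Agent.P146.R1S Vale.Agent.P146.H191 Vale.Agent.P146.H350

set_option linter.unusedSectionVars false

section det

variable {n : ℕ}

/-- the regularised normalizer, plain letters -/
noncomputable def hq (e : ℝ) (A : Fin n → Fin n → ℝ) : ℝ := 1 / (H191.fro A ^ 2 + e) ^ 2

lemma hq_eq (e : ℝ) (A : Fin n → Fin n → ℝ) : hq e A = H561.hh e (Matrix.of A) := by
  unfold hq H561.hh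
  rw [H191.fro_sq]
  rfl

lemma hq_pos {e : ℝ} (he : 0 < e) (A : Fin n → Fin n → ℝ) : 0 < hq e A := by
  unfold hq
  positivity

lemma hq_le {e : ℝ} (he : 0 < e) (A : Fin n → Fin n → ℝ) : hq e A ≤ 1 / e ^ 2 := by
  rw [hq_eq]
  exact H561.hh_le he _

lemma hq_lip {e : ℝ} (he : 0 < e) (A A' : Fin n → Fin n → ℝ) :
    |hq e A' - hq e A| ≤ 1 / √e * (H191.fro fun i j => A' i j - A i j) * (hq e A' + hq e A) := by
  refine (H561.inv_lip he (H191.fro_nonneg A) (H191.fro_nonneg A')).trans ?_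
  have h1 : 0 < √e := Real.sqrt_pos.2 he
  refine mul_le_mul_of_nonneg_right ?_ (add_nonneg (hq_pos he A').le (hq_pos he A).le)
  exact mul_le_mul_of_nonneg_left (fro_sub_abs A A') (by positivity)

/-- the product of the two scalar weights -/
noncomputable def gh (κ e : ℝ) (A C : Fin n → Fin n → ℝ) : ℝ := gq κ A C * hq e A

lemma gh_pos {κ e : ℝ} (hκ : 0 < κ) (he : 0 < e) (A C : Fin n → Fin n → ℝ) : 0 < gh κ e A C :=
  mul_pos (gq_pos hκ A C) (hq_pos he A)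

lemma gh_le {κ e : ℝ} (hκ : 0 < κ) (he : 0 < e) (A C : Fin n → Fin n → ℝ) :
    gh κ e A C ≤ 1 / κ * hq e A := mul_le_mul_of_nonneg_right (gq_le hκ A C) (hq_pos he A).le

lemma gh_le' {κ e : ℝ} (hκ : 0 < κ) (he : 0 < e) (A C : Fin n → Fin n → ℝ) :
    gh κ e A C ≤ 1 / κ * (1 / e ^ 2) := (gh_le hκ he A C).trans
  (mul_le_mul_of_nonneg_left (hq_le he A) (one_div_pos.2 hκ).le)

/-- **the product weight is Lipschitz, relative touches** -/
theorem gh_touch {κ e : ℝ} (hκ : 0 < κ) (he : 0 < e) (A C A' C' : Fin n → Fin n → ℝ) :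
    |gh κ e A' C' - gh κ e A C| ≤
      hq e A' * (2 / κ * gq κ A C * ((H191.fro fun i j => A' i j - A i j) / mq A +
        (H191.fro fun i j => C' i j - C i j) / mq C)) +
      gq κ A C * (1 / √e * (H191.fro fun i j => A' i j - A i j) * (hq e A' + hq e A)) := by
  have e1 : gh κ e A' C' - gh κ e A C = hq e A' * (gq κ A' C' - gq κ A C) +
      gq κ A C * (hq e A' - hq e A) := by
    unfold gh
    ring
  rw [e1]
  refine (abs_add_le _ _).trans (add_le_add ?_ ?_)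
  · rw [abs_mul, abs_of_pos (hq_pos he A')]
    exact mul_le_mul_of_nonneg_left (gq_touch hκ A C A' C') (hq_pos he A').le
  · rw [abs_mul, abs_of_pos (gq_pos hκ _ _)]
    exact mul_le_mul_of_nonneg_left (hq_lip he A A') (gq_pos hκ _ _).le

/-- the difference of two quadratic weights -/
lemma wq_sub_le {Y M C : Fin n → Fin n → ℝ}
    (hs : ∀ i j, Y i j = Y j i) (hY : ∀ v : Fin n → ℝ, 0 ≤ ∑ i, ∑ j, Y i j * (v i * v j))
    (hM : ∀ i l, M i l = M l i) (hC : ∀ i l, C i l = C l i) :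
    |wq Y M - wq Y C| ≤ √(wq Y fun i l => M i l - C i l) * (√(wq Y M) + √(wq Y C)) := by
  have hD : ∀ i l, M i l - C i l = M l i - C l i := fun i l => by rw [hM i l, hC i l]
  rw [wq_eq hM, wq_eq hC, wq_eq hD]
  have e1 : wb Y M M - wb Y C C = wb Y (fun i l => M i l - C i l) M +
      wb Y C (fun i l => M i l - C i l) := by
    unfold wb
    simp only [← Finset.sum_sub_distrib, ← Finset.sum_add_distrib]
    exact Finset.sum_congr rfl fun l _ => Finset.sum_congr rfl fun i _ =>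
      Finset.sum_congr rfl fun j _ => by ring
  rw [e1]
  refine (abs_add_le _ _).trans ?_
  have a1 := wb_cs hs hY (fun i l => M i l - C i l) M
  have a2 := wb_cs hs hY C (fun i l => M i l - C i l)
  calc _ ≤ _ := add_le_add a1 a2
    _ = _ := by ring

/-- the rest of the difference of two product weights -/
noncomputable def rhoh (κ e : ℝ) (Y M1 M2 C1 C2 : Fin n → Fin n → ℝ) : ℝ :=
  wq Y M1 * gh κ e M1 M2 - wq Y C1 * gh κ e C1 C2

/-- **The rest is a touch of the two matrices, in the form `Y`.** -/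
theorem rhoh_le {κ e : ℝ} (hκ : 0 < κ) (he : 0 < e) {Y M1 M2 C1 C2 : Fin n → Fin n → ℝ}
    (hs : ∀ i j, Y i j = Y j i) (hY : ∀ v : Fin n → ℝ, 0 ≤ ∑ i, ∑ j, Y i j * (v i * v j))
    (hM : ∀ i l, M1 i l = M1 l i) (hC : ∀ i l, C1 i l = C1 l i) :
    |rhoh κ e Y M1 M2 C1 C2| ≤
      gh κ e M1 M2 * (√(wq Y fun i l => M1 i l - C1 i l) * (√(wq Y M1) + √(wq Y C1))) +
      wq Y C1 * (hq e M1 * (2 / κ * gq κ C1 C2 *
          ((H191.fro fun i j => M1 i j - C1 i j) / mq C1 +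
            (H191.fro fun i j => M2 i j - C2 i j) / mq C2)) +
        gq κ C1 C2 * (1 / √e * (H191.fro fun i j => M1 i j - C1 i j) *
          (hq e M1 + hq e C1))) := by
  have e1 : rhoh κ e Y M1 M2 C1 C2 = gh κ e M1 M2 * (wq Y M1 - wq Y C1) +
      wq Y C1 * (gh κ e M1 M2 - gh κ e C1 C2) := by
    unfold rhoh
    ring
  rw [e1]
  refine (abs_add_le _ _).trans (add_le_add ?_ ?_)
  · rw [abs_mul, abs_of_pos (gh_pos hκ he _ _)]
    exact mul_le_mul_of_nonneg_left (wq_sub_le hs hY hM hC) (gh_pos hκ he _ _).le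
  · rw [abs_mul, abs_of_nonneg (wq_nonneg hY hC)]
    exact mul_le_mul_of_nonneg_left (gh_touch hκ he C1 C2 M1 M2) (wq_nonneg hY hC)

end det

/-! ### functions -/

section fn

variable {ι : Type} [Fintype ι] {n : ℕ}

lemma eg_hq {e : ℝ} (he : 0 < e) {A : (ι → ℝ) → Fin n → Fin n → ℝ}
    (hA : ∀ i l, EG fun w => A w i l) : EG fun w => hq e (A w) := by
  refine EG.of_bdd (C := 1 / e ^ 2) ?_ fun w => ?_
  · exact measurable_const.div ((((eg_fro hA).meas.pow_const 2).add measurable_const).pow_const 2)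
  · rw [abs_of_pos (hq_pos he _)]
    exact hq_le he _

lemma eg_gh {κ e : ℝ} (hκ : 0 < κ) (he : 0 < e) {A C : (ι → ℝ) → Fin n → Fin n → ℝ}
    (hA : ∀ i l, EG fun w => A w i l) (hC : ∀ i l, EG fun w => C w i l) :
    EG fun w => gh κ e (A w) (C w) := (eg_gq hκ hA hC).mul (eg_hq he hA)

/-- The weight `tr (Y M1²) G(M1, M2) h(M1)`. -/
noncomputable def chh (κ e : ℝ) (Y M1 M2 : (ι → ℝ) → Fin n → Fin n → ℝ) (w : ι → ℝ) : ℝ :=
  wq (Y w) (M1 w) * gh κ e (M1 w) (M2 w)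

lemma eg_chh {κ e : ℝ} (hκ : 0 < κ) (he : 0 < e) {Y M1 M2 : (ι → ℝ) → Fin n → Fin n → ℝ}
    (hY : ∀ i l, EG fun w => Y w i l) (h1 : ∀ i l, EG fun w => M1 w i l)
    (h2 : ∀ i l, EG fun w => M2 w i l) : EG (chh κ e Y M1 M2) :=
  (eg_wq hY h1).mul (eg_gh hκ he h1 h2)

lemma chh_nonneg {κ e : ℝ} (hκ : 0 < κ) (he : 0 < e) {Y M1 M2 : (ι → ℝ) → Fin n → Fin n → ℝ}
    {w : ι → ℝ} (hY : ∀ v : Fin n → ℝ, 0 ≤ ∑ i, ∑ j, Y w i j * (v i * v j))
    (h1 : ∀ i l, M1 w i l = M1 w l i) : 0 ≤ chh κ e Y M1 M2 w :=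
  mul_nonneg (wq_nonneg hY h1) (gh_pos hκ he _ _).le

/-- the product weight is the old weight times the normalizer -/
lemma chh_eq (κ e : ℝ) (Y M1 M2 : (ι → ℝ) → Fin n → Fin n → ℝ) (w : ι → ℝ) :
    chh κ e Y M1 M2 w = chq κ Y M1 M2 w * hq e (M1 w) := by
  unfold chh chq gh
  ring

lemma chh_le {κ e : ℝ} (hκ : 0 < κ) (he : 0 < e) {Y M1 M2 : (ι → ℝ) → Fin n → Fin n → ℝ}
    {w : ι → ℝ} (hY : ∀ v : Fin n → ℝ, 0 ≤ ∑ i, ∑ j, Y w i j * (v i * v j))
    (h1 : ∀ i l, M1 w i l = M1 w l i) :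
    chh κ e Y M1 M2 w ≤ 1 / κ * (wq (Y w) (M1 w) * hq e (M1 w)) := by
  refine (mul_le_mul_of_nonneg_left (gh_le hκ he (M1 w) (M2 w)) (wq_nonneg hY h1)).trans
    (le_of_eq ?_)
  ring

/-- the splitting of the difference of the weights -/
lemma chh_split (κ e : ℝ) (Yb Y M1 M2 C1 C2 : (ι → ℝ) → Fin n → Fin n → ℝ) (w : ι → ℝ) :
    chh κ e Yb M1 M2 w - chh κ e Y C1 C2 w =
      (∑ i, ∑ j, (Yb w i j - Y w i j) * ∑ l, C1 w i l * C1 w l j) * gh κ e (C1 w) (C2 w) +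
        rhoh κ e (Yb w) (M1 w) (M2 w) (C1 w) (C2 w) := by
  have e1 : ∑ i, ∑ j, (Yb w i j - Y w i j) * ∑ l, C1 w i l * C1 w l j =
      wq (Yb w) (C1 w) - wq (Y w) (C1 w) := by
    unfold wq
    rw [← Finset.sum_sub_distrib]
    refine Finset.sum_congr rfl fun i _ => ?_
    rw [← Finset.sum_sub_distrib]
    exact Finset.sum_congr rfl fun j _ => by ring
  rw [e1]
  unfold chh rhoh
  ring

lemma eg_rhoh {κ e : ℝ} (hκ : 0 < κ) (he : 0 < e)
    {Y M1 M2 C1 C2 : (ι → ℝ) → Fin n → Fin n → ℝ}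
    (hY : ∀ i l, EG fun w => Y w i l) (h1 : ∀ i l, EG fun w => M1 w i l)
    (h2 : ∀ i l, EG fun w => M2 w i l) (h3 : ∀ i l, EG fun w => C1 w i l)
    (h4 : ∀ i l, EG fun w => C2 w i l) :
    EG fun w => rhoh κ e (Y w) (M1 w) (M2 w) (C1 w) (C2 w) :=
  ((eg_wq hY h1).mul (eg_gh hκ he h1 h2)).sub ((eg_wq hY h3).mul (eg_gh hκ he h3 h4))

end fn

section row

variable {n : ℕ} {b : Fin n} {κ e : ℝ} {Y M1 M2 : MF n}

lemma ind_chh (hY : Ifz b Y) (h1 : Ifz b M1) (h2 : Ifz b M2) :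
    Ind (lf (row b)) (chh κ e Y M1 M2) := fun z w => by
  unfold chh
  rw [Ifz.eq hY, Ifz.eq h1, Ifz.eq h2]

/-- **The frozen product weight as data of the law change.** -/
theorem fzn_chh (hκ : 0 < κ) (he : 0 < e) (eY : ∀ i l, EG fun w => Y w i l)
    (e1 : ∀ i l, EG fun w => M1 w i l)
    (e2 : ∀ i l, EG fun w => M2 w i l) (hY : Ifz b Y) (h1 : Ifz b M1) (h2 : Ifz b M2)
    (hYp : ∀ w, ∀ v : Fin n → ℝ, 0 ≤ ∑ i, ∑ j, Y w i j * (v i * v j))
    (s1 : ∀ w i l, M1 w i l = M1 w l i) : Fzn b (chh κ e Y M1 M2) M1 M2 where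
  eχ := eg_chh hκ he eY e1 e2
  iχ := ind_chh hY h1 h2
  χ0 w := chh_nonneg hκ he (hYp w) (s1 w)
  e1 := e1
  e2 := e2
  i1 := h1
  i2 := h2

lemma fr_chh (hY : Ifz b Y) (h1 : Ifz b M1) (h2 : Ifz b M2) : Fr b (chh κ e Y M1 M2) :=
  Fr.of_ind (ind_chh hY h1 h2)

end row

end Vale.Agent.P146.H581.CH
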